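/-
P235, st worlds with an absolute constant (helper945): everything above the integral bag theorem.
`Core1 K` (integral bags, constant `K`) gives `StBound n K'` for all `n`.
-/
import Vale.Agent.P235.R2.H611.W1Any
import Vale.Agent.P235.LL.H565.StFinal

namespace Vale.Agent.P235.ST.H945

open Vale.Agent.P235 Vale.Agent.P235.Red Equiv VPBruhat Finset

/-- **the integral bag theorem with the constant `K`** -/
def Core1 (K : ℝ) : Prop :=
  ∀ (V : Type) [Finite V] (h : V → ℕ) (B : ℕ → Set V) (N : ℕ), (bagGraph B N).Connected →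
    (∀ v, ∃ i ≤ N, v ∈ B i) →
    (∀ v i j k, i ≤ j → j ≤ k → k ≤ N → v ∈ B i → v ∈ B k → v ∈ B j) →
    ∃ (Ω : Type) (_ : Fintype Ω) (p : Ω → ℝ) (X : Ω → V → ℝ), (∀ ω, 0 ≤ p ω) ∧
      (∀ i ≤ N, ∀ x ∈ B i, ∀ y ∈ B i, ∑ ω, p ω * |X ω x - X ω y| ≤ (nd (h x) (h y) : ℝ)) ∧
      ∀ x y, (dN h B N x y : ℝ) ≤ K * ∑ ω, p ω * |X ω x - X ω y|

/-- the bag theorem with an absolute constant -/
theorem bag1 {A : ℝ} (hA : 1 ≤ A) (hf : Core1 A) {V : Type} [Finite V] {G : SimpleGraph V}
    {ℓ : Sym2 V → ℝ} {h : V → ℝ} {N : ℕ} {B : ℕ → Set V} (hc : G.Connected)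
    (hℓ : ∀ e ∈ G.edgeSet, 0 < ℓ e) (hb : Bags G ℓ h N B) :
    EmbedsL1 (pathDist G ℓ) (2 * A) := by
  classical
  obtain ⟨δ, hδ, hδℓ⟩ := exists_min_len hℓ
  have hVne : Nonempty V := hc.nonempty
  obtain ⟨m, hm⟩ : ∃ m : ℝ, ∀ x, m ≤ h x := by
    obtain ⟨m, hm⟩ := (Set.finite_range h).bddBelow
    exact ⟨m, fun x => hm ⟨x, rfl⟩⟩
  set K : ℝ := 5 / δ with hK
  have hKpos : 0 < K := by positivity
  have hKδ : K * δ = 5 := by rw [hK]; field_simp
  set h0 : V → ℕ := fun x => ⌊K * (h x - m)⌋₊ with hh0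
  -- rounding inside the bags
  have hround : ∀ i ≤ N, ∀ x ∈ B i, ∀ y ∈ B i,
      4 / 5 * K * pathDist G ℓ x y ≤ (nd (h0 x) (h0 y) : ℝ) ∧
        (nd (h0 x) (h0 y) : ℝ) ≤ 6 / 5 * K * pathDist G ℓ x y := by
    intro i hi x hx y hy
    by_cases hxy : x = y
    · subst hxy
      rw [pd_self hℓ]; simp [nd]
    · have h1 := pd_ge hc hℓ hδℓ hxy
      have h2 := hb.line i hi x hx y hy
      have h3 := floor_diff (a := K * (h x - m)) (b := K * (h y - m))
        (mul_nonneg hKpos.le (by linarith [hm x])) (mul_nonneg hKpos.le (by linarith [hm y]))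
      have h4 : K * (h x - m) - K * (h y - m) = K * (h x - h y) := by ring
      rw [h4, abs_mul, abs_of_pos hKpos, ← h2] at h3
      have h5 : 5 ≤ K * pathDist G ℓ x y := by
        rw [← hKδ]; exact mul_le_mul_of_nonneg_left h1 hKpos.le
      exact ⟨by linarith [h3.1], by linarith [h3.2]⟩
  -- the bag graph is connected
  have hGle : ∀ u v, G.Adj u v → (bagGraph B N).Adj u v := fun u v huv => by
    obtain ⟨i, hi, h1, h2⟩ := hb.cover u v huv
    exact ⟨huv.ne, i, hi, h1, h2⟩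
  have hbc : (bagGraph B N).Connected := hc.mono (fun u v huv => hGle u v huv)
  obtain ⟨Ω, _, p, X, hp, h1, h2⟩ := hf V h0 B N hbc hb.every hb.convex
  set ρ : V → V → ℝ := fun x y => ∑ ω, p ω * |X ω x - X ω y| with hρ
  have hρ0 : ∀ x, ρ x x = 0 := by intro x; simp [hρ]
  have hρt : ∀ x y z, ρ x z ≤ ρ x y + ρ y z := by
    intro x y z
    rw [hρ]
    simp only
    rw [← Finset.sum_add_distrib]
    refine Finset.sum_le_sum fun ω _ => ?_
    rw [← mul_add]
    exact mul_le_mul_of_nonneg_left (abs_sub_le _ _ _) (hp ω)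
  have hup : ∀ x y, ρ x y ≤ 6 / 5 * K * pathDist G ℓ x y := by
    refine pd_semi hc (by positivity) hρ0 hρt fun u v huv => ?_
    obtain ⟨i, hi, hu, hv⟩ := hb.cover u v huv
    refine (h1 i hi u hu v hv).trans ?_
    refine ((hround i hi u hu v hv).2).trans ?_
    exact mul_le_mul_of_nonneg_left (pd_adj hℓ huv) (by positivity)
  have hwalk : ∀ x y, ∀ w : (bagGraph B N).Walk x y,
      4 / 5 * K * pathDist G ℓ x y ≤ ((w.edges.map (Red.len h0)).sum : ℝ) := by
    intro x y w
    induction w with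
    | nil => rw [pd_self hℓ]; simp
    | @cons a b c hab q ih =>
      rw [SimpleGraph.Walk.edges_cons, List.map_cons, List.sum_cons, Red.len_mk]
      obtain ⟨-, i, hi, ha, hb'⟩ := hab
      have h3 := (hround i hi a ha b hb').1
      have h4 := pd_tri hc hℓ a b c
      have h5 : 4 / 5 * K * pathDist G ℓ a c ≤
          4 / 5 * K * (pathDist G ℓ a b + pathDist G ℓ b c) :=
        mul_le_mul_of_nonneg_left h4 (by positivity)
      push_cast
      push_cast at ih
      linarith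
  have hlow : ∀ x y, 4 / 5 * K * pathDist G ℓ x y ≤ A * ρ x y := by
    intro x y
    refine le_trans ?_ (h2 x y)
    obtain ⟨w, hw⟩ := dN_attained (h := h0) hbc x y
    rw [← hw]
    exact hwalk x y w
  set c : ℝ := A / (4 / 5 * K) with hcdef
  have hc0 : 0 ≤ c := div_nonneg (by linarith) (by positivity)
  have hsum : ∀ x y, ∑ ω, c * p ω * |X ω x - X ω y| = c * ρ x y := by
    intro x y
    rw [hρ]; simp only; rw [Finset.mul_sum]
    exact Finset.sum_congr rfl fun _ _ => by ring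
  refine H263.embeds_of_family (P := fun ω => c * p ω) (fun ω => mul_nonneg hc0 (hp ω)) X ?_ ?_
  · intro x y
    rw [hsum, hcdef, div_mul_eq_mul_div, le_div_iff₀ (by positivity)]
    linarith [hlow x y]
  · intro x y
    rw [hsum]
    calc c * ρ x y ≤ c * (6 / 5 * K * pathDist G ℓ x y) :=
          mul_le_mul_of_nonneg_left (hup x y) hc0
      _ = (3 / 2) * A * pathDist G ℓ x y := by
          rw [hcdef]; field_simp; ring
      _ ≤ (2 * A) * pathDist G ℓ x y :=
          mul_le_mul_of_nonneg_right (by linarith) (pd_nonneg hℓ x y)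


section cyc
open H318

/-- **The bag theorem for cyclic sequences of bags.** -/
theorem cyc1 {A : ℝ} (hA : 1 ≤ A) (hf : Core1 A) {V : Type} [Finite V] {G : SimpleGraph V}
    {ℓ : Sym2 V → ℝ} {h : V → ℝ} {N : ℕ} {B : ℕ → Set V} (hc : G.Connected)
    (hℓ : ∀ e ∈ G.edgeSet, 0 < ℓ e) (H : CycBags G ℓ h N B) :
    EmbedsL1 (pathDist G ℓ) (219073 * (2 * A)) := by
  classical
  have hd := pathDist_isMet hc hℓ
  have hB0 : B N = B 0 := H.closed
  -- the two bag graphs
  set G₁ := Red.bagGraph B N with hG₁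
  set G' := Red.bagGraph (bag B N) N with hG'
  have hle : G ≤ G₁ := fun u v huv => by
    obtain ⟨i, hi, h1, h2⟩ := H.cover u v huv
    exact ⟨huv.ne, i, hi, h1, h2⟩
  have hc₁ : G₁.Connected := hc.mono hle
  have hc' : G'.Connected := H.connected' hc.nonempty
  have hadj₁ : ∀ u v, G₁.Adj u v → pathDist G ℓ u v = |h u - h v| := by
    rintro u v ⟨-, i, hi, h1, h2⟩
    exact H.line i hi u h1 v h2
  have hpos₁ : ∀ u v, G₁.Adj u v → 0 < |h u - h v| := fun u v huv => by
    rw [← hadj₁ u v huv]; exact hd.pos u v huv.1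
  have hproj : ∀ x y, G'.Adj x y → G₁.Adj (proj B N x) (proj B N y) := by
    rintro x y ⟨hne, i, hi, h1, h2⟩
    exact ⟨fun e => hne (proj_inj h1 h2 e), i, hi, proj_mem hi h1, proj_mem hi h2⟩
  have hℓ₁ : ∀ e ∈ G₁.edgeSet, 0 < hlen h e := by
    intro e
    induction e using Sym2.ind with
    | _ u v => exact fun he => hpos₁ u v he
  have hℓ' : ∀ e ∈ G'.edgeSet, 0 < hlen (fun x => h (proj B N x)) e := by
    intro e
    induction e using Sym2.ind with
    | _ x y => exact fun he => hpos₁ _ _ (hproj x y he)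
  have hd' := pathDist_isMet hc' hℓ'
  have hd₁ := pathDist_isMet hc₁ hℓ₁
  -- distances inside the bags
  have hline₁ : ∀ i ≤ N, ∀ u ∈ B i, ∀ v ∈ B i, pathDist G₁ (hlen h) u v ≤ |h u - h v| := by
    intro i hi u hu v hv
    by_cases e : u = v
    · rw [e, hd₁.self]; exact abs_nonneg _
    · exact pathDist_adj hℓ₁ (show G₁.Adj u v from ⟨e, i, hi, hu, hv⟩)
  have hline' : ∀ i ≤ N, ∀ x ∈ bag B N i, ∀ y ∈ bag B N i,
      pathDist G' (hlen fun x => h (proj B N x)) x y = |h (proj B N x) - h (proj B N y)| := by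
    intro i hi x hx y hy
    apply le_antisymm
    · by_cases e : x = y
      · rw [e, hd'.self]; exact abs_nonneg _
      · exact pathDist_adj hℓ' (show G'.Adj x y from ⟨e, i, hi, hx, hy⟩)
    · have : Nonempty (G'.Walk x y) := hc' x y
      exact le_ciInf fun p => walk_lip (f := fun x => h (proj B N x)) (fun u v _ => le_rfl) p
  have hbags : Red.Bags G' (hlen fun x => h (proj B N x)) (fun x => h (proj B N x)) N
      (bag B N) :=
    { every := H.every'
      cover := fun x y hxy => by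
        obtain ⟨-, i, hi, h1, h2⟩ := hxy
        exact ⟨i, hi, h1, h2⟩
      line := hline'
      convex := H.convex' }
  have hemb := bag1 hA hf hc' hℓ' hbags
  have hK : 1 ≤ 2 * A := by linarith
  -- the metric of the bag graph is the metric of `G`
  have heq : pathDist G₁ (hlen h) = pathDist G ℓ := by
    funext x y
    apply le_antisymm
    · have := pathDist_semi (G := G) (ℓ := ℓ) (ρ := pathDist G₁ (hlen h)) (K := 1) hc one_pos
        hd₁.self hd₁.tri (fun u v huv => by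
          obtain ⟨i, hi, h1, h2⟩ := H.cover u v huv
          have h3 := hline₁ i hi u h1 v h2
          rw [← H.line i hi u h1 v h2] at h3
          have h4 := pathDist_adj hℓ huv
          linarith) x y
      rwa [one_mul] at this
    · have := pathDist_semi (G := G₁) (ℓ := hlen h) (ρ := pathDist G ℓ) (K := 1) hc₁ one_pos
        hd.self hd.tri (fun u v huv => by
          rw [hadj₁ u v huv, one_mul]; exact le_rfl) x y
      rwa [one_mul] at this
  rw [← heq]
  refine cut_graph (G := G₁) (G' := G') hc₁ hc' hℓ₁ hℓ' hK hemb (proj B N) Sum.inl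
    (fun v => rfl) (fun x y hxy => ⟨hproj x y hxy, rfl⟩) (B 0)
    (fun σ => if σ then bag B N 0 else bag B N N) ?_ ?_ ?_ h (fun u v _ => le_rfl) ?_ ?_ ?_ ?_
  · -- nonempty
    have hne : ∀ i ≤ N, (B i).Nonempty → (bag B N i).Nonempty := fun i hi ⟨v, hv⟩ => by
      obtain ⟨x, hx, -⟩ := H.lift_one hi hv
      exact ⟨x, hx⟩
    have h0 : (B 0).Nonempty := by
      rcases Nat.eq_zero_or_pos N with hN | hN
      · obtain ⟨v⟩ := hc.nonempty
        obtain ⟨i, hi, hv⟩ := H.every v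
        obtain rfl : i = 0 := by omega
        exact ⟨v, hv⟩
      · obtain ⟨v, hv, -⟩ := H.meet 0 hN
        exact ⟨v, hv⟩
    intro σ
    cases σ
    · exact hne N le_rfl (by rw [hB0]; exact h0)
    · exact hne 0 (Nat.zero_le _) h0
  · intro σ x hx
    cases σ
    · have := proj_mem le_rfl (hx : x ∈ bag B N N)
      rwa [hB0] at this
    · exact proj_mem (Nat.zero_le _) (hx : x ∈ bag B N 0)
  · intro v hv
    refine mem_inl.2 ⟨hv, fun _ i' hi' => ?_⟩
    obtain rfl : i' = 0 := by omega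
    exact hv
  · intro σ a ha c hc
    cases σ
    · exact (hline' N le_rfl a ha c hc).le
    · exact (hline' 0 (Nat.zero_le _) a ha c hc).le
  · exact fun a ha c hc => hline₁ 0 (Nat.zero_le _) a ha c hc
  · rintro u v hu hv ⟨hne, i, hi, h1, h2⟩
    exact ⟨fun e => hne (Sum.inl_injective e), i, hi, mem_inl.2 ⟨h1, fun h => absurd h hu⟩,
      mem_inl.2 ⟨h2, fun h => absurd h hv⟩⟩
  · rintro a v ha hv ⟨hne, i, hi, h1, h2⟩
    have hvi : (Sum.inl v : Open B N) ∈ bag B N i := mem_inl.2 ⟨h1, fun h => absurd h hv⟩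
    have hleft : ∀ i' ≤ 0, a ∈ B i' := fun i' hi' => by
      obtain rfl : i' = 0 := by omega
      exact ha
    by_cases hp : ∀ i' ≤ i, a ∈ B i'
    · exact ⟨true, Sum.inl a, mem_inl.2 ⟨ha, fun _ => hleft⟩, rfl,
        fun e => hne (Sum.inl_injective e), i, hi, hvi, mem_inl.2 ⟨h2, fun _ => hp⟩⟩
    · have hs : ∀ k, i ≤ k → k ≤ N → a ∈ B k := (H.pre_suf ha h2).resolve_left hp
      push Not at hp
      obtain ⟨j, hj, hja⟩ := hp
      refine ⟨false, Sum.inr ⟨a, ha, j, by omega, hja⟩, mem_inr.2 fun k h3 h4 => ?_, rfl,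
        (by simp), i, hi, hvi, mem_inr.2 hs⟩
      obtain rfl : k = N := by omega
      rw [hB0]; exact ha


end cyc

section tight
open R2.H168

/-- a plane graph with the lengths of a height function with only two local extrema -/
theorem height1 {A : ℝ} (hA : 1 ≤ A) (hf : Core1 A) (V : Type) [Finite V]
    (G : SimpleGraph V) (σ : Equiv.Perm G.Dart) (h : V → ℝ) (s t : V)
    (hc : G.Connected) (hP : PlaneMap G σ) (hU : UpDown G h s t) :
    EmbedsL1 (pathDist G (hlen h)) (219073 * (2 * A)) := by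
  have hpos : ∀ u v, G.Adj u v → 0 < hlen h s(u, v) := fun u v ha =>
    abs_pos.2 (sub_ne_zero.2 (hU.ne u v ha))
  have hℓ : ∀ e ∈ G.edgeSet, 0 < hlen h e := fun e he => by
    induction e with
    | _ u v => exact hpos u v he
  obtain ⟨P, hS⟩ := rowCyc V G σ h s t hc hP hU
  exact cyc1 hA hf hc hℓ (H318.cycBags_of_sweep hS (fun u v _ => rfl) hpos)

/-- **Slopes in `[1/D, 1]`, two local extrema anywhere.** -/
theorem slope1 {A : ℝ} (hA : 1 ≤ A) (hf : Core1 A) (V : Type) [Finite V]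
    (G : SimpleGraph V) (σ : Equiv.Perm G.Dart) (ℓ : Sym2 V → ℝ) (h : V → ℝ)
    (s t : V) (D : ℝ) (hc : G.Connected) (hP : PlaneMap G σ) (hℓ : ∀ e ∈ G.edgeSet, 0 < ℓ e)
    (h1 : ∀ u v, G.Adj u v → |h u - h v| ≤ ℓ s(u, v))
    (h2 : ∀ u v, G.Adj u v → ℓ s(u, v) ≤ D * |h u - h v|)
    (hlow : ∀ v, v ≠ s → ∃ u, G.Adj v u ∧ h u < h v)
    (hhigh : ∀ v, v ≠ t → ∃ u, G.Adj v u ∧ h v < h u) :
    EmbedsL1 (pathDist G ℓ) (219073 * 2 * A * D) := by
  have hne : ∀ u v, G.Adj u v → h u ≠ h v := by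
    intro u v ha he
    have h3 := h2 u v ha
    have h4 := hℓ _ ((G.mem_edgeSet).2 ha)
    rw [he, sub_self, abs_zero, mul_zero] at h3
    linarith
  have hmin : ∀ v, h s ≤ h v := by
    have : Nonempty V := hc.nonempty
    obtain ⟨m, hm⟩ := Finite.exists_min h
    by_cases hms : m = s
    · subst hms; exact hm
    · obtain ⟨u, _, hu⟩ := hlow m hms
      exact absurd (hm u) (not_le.2 hu)
  have hmax : ∀ v, h v ≤ h t := by
    have : Nonempty V := hc.nonempty
    obtain ⟨m, hm⟩ := Finite.exists_max h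
    by_cases hms : m = t
    · subst hms; exact hm
    · obtain ⟨u, _, hu⟩ := hhigh m hms
      exact absurd (hm u) (not_le.2 hu)
  obtain ⟨a, b, hab⟩ := planeMap_adj hc hP
  have hlt : h s < h t := by
    rcases lt_or_gt_of_ne (hne a b hab) with h3 | h3
    · linarith [hmin a, hmax b]
    · linarith [hmin b, hmax a]
  have hU : UpDown G h s t := ⟨hne, hlow, hhigh, hlt⟩
  have hD : 0 ≤ D := by
    by_contra hD
    push Not at hD
    have h3 := h2 a b hab
    have h4 := hℓ _ ((G.mem_edgeSet).2 hab)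
    have h5 : D * |h a - h b| ≤ 0 := mul_nonpos_of_nonpos_of_nonneg hD.le (abs_nonneg _)
    linarith
  have hE := height1 hA hf V G σ h s t hc hP hU
  have e1 : ∀ x y, pathDist G ℓ x y ≤ D * pathDist G (hlen h) x y :=
    R2.H673.pathDist_le_mul hD (fun u v ha => (abs_nonneg _).trans (h1 u v ha)) h2
  have e2 : ∀ x y, pathDist G (hlen h) x y ≤ 1 * pathDist G ℓ x y :=
    R2.H673.pathDist_le_mul zero_le_one (fun u v _ => abs_nonneg _)
      (fun u v ha => by rw [one_mul]; exact h1 u v ha)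
  refine R2.H673.embedsL1_scale hD hE e1 (fun x y => ?_)
  have h3 : (0 : ℝ) ≤ 219073 * 2 * A * D := by positivity
  have h4 := mul_le_mul_of_nonneg_left (e2 x y) h3
  rw [one_mul] at h4
  calc D * (219073 * (2 * A) * pathDist G (hlen h) x y) =
      219073 * 2 * A * D * pathDist G (hlen h) x y := by ring
    _ ≤ _ := h4

end tight

section wide
open SimpleGraph Vale.Agent.P235.Red.F0 Vale.Agent.P235.W1 Vale.Agent.P235.Tight

/-- every vertex except `t` has a tight edge upwards, every vertex except `s` a tight edge downwards,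
all other edges are arbitrary -/
theorem bip1 {A : ℝ} (hA : 1 ≤ A) (hf : Core1 A) (V : Type) [Finite V]
    (G : SimpleGraph V) (σ : Equiv.Perm G.Dart) (ℓ : Sym2 V → ℝ) (h : V → ℝ) (s t : V)
    (hP : PlaneMap G σ) (hB : Bip G ℓ h s t) :
    EmbedsL1 (pathDist G ℓ) (219073 * 2 * A) := by
  have hcard : (slk G ℓ h).ncard ≤ Nat.card V ^ 2 := by
    have h1 : (slk G ℓ h).ncard ≤ Nat.card (V × V) := by
      rw [← Set.ncard_univ]
      exact Set.ncard_le_ncard (Set.subset_univ _) (Set.toFinite _)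
    rwa [Nat.card_prod, ← sq] at h1
  obtain ⟨V', i, G', ℓ', h', s', t', ι, k1, ⟨σ', k2⟩, k3, k4, k5⟩ :=
    reduceA rowW _ V G ℓ h s t hB ⟨σ, hP⟩ hcard
  have hE := slope1 hA hf V' G' σ' ℓ' h' s' t' 1 k1.conn k2 k1.pe k1.lip
    (fun u v ha => by
      rw [one_mul]
      by_contra hlt
      have h1 : (u, v) ∈ slk G' ℓ' h' := ⟨ha, not_le.1 hlt⟩
      rw [k3] at h1
      exact h1)
    (fun v hv => by
      obtain ⟨w, hw, h1⟩ := k1.dn v hv
      have h2 := k1.pos v w hw
      exact ⟨w, hw, by linarith⟩)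
    (fun v hv => by
      obtain ⟨w, hw, h1⟩ := k1.up v hv
      have h2 := k1.pos v w hw
      exact ⟨w, hw, by linarith⟩)
  rw [mul_one] at hE
  exact embeds_restrict ι k4 hE

/-- **Plane graphs with a nonexpansive function `h` for which every vertex except `s` has an edge
downwards with slope at least `1/D` and every vertex except `t` has an edge upwards with slope at
least `1/D`.**  All other edges are arbitrary, `s` and `t` are arbitrary. -/
theorem wide1 {A : ℝ} (hA : 1 ≤ A) (hf : Core1 A) (V : Type) [Finite V]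
    (G : SimpleGraph V) (σ : Equiv.Perm G.Dart) (ℓ : Sym2 V → ℝ) (h : V → ℝ) (s t : V) (D : ℝ)
    (hD : 1 ≤ D) (hc : G.Connected) (hP : PlaneMap G σ) (hℓ : ∀ e ∈ G.edgeSet, 0 < ℓ e)
    (h1 : ∀ u v, G.Adj u v → |h u - h v| ≤ ℓ s(u, v))
    (hlow : ∀ v, v ≠ s → ∃ u, G.Adj v u ∧ ℓ s(v, u) ≤ D * (h v - h u))
    (hhigh : ∀ v, v ≠ t → ∃ u, G.Adj v u ∧ ℓ s(v, u) ≤ D * (h u - h v)) :
    EmbedsL1 (pathDist G ℓ) (219073 * 2 * A * D) := by
  classical
  have pos : ∀ u v, G.Adj u v → 0 < ℓ s(u, v) := fun u v ha => hℓ _ (G.mem_edgeSet.2 ha)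
  have hD0 : 0 < D := by linarith
  have s1 : ∀ u v, shr ℓ h D s(u, v) = if ℓ s(u, v) ≤ D * |h u - h v| then |h u - h v|
      else ℓ s(u, v) := by
    intro u v
    unfold shr
    by_cases hh : ℓ s(u, v) ≤ D * |h u - h v|
    · rw [if_pos hh]
      exact if_pos hh
    · rw [if_neg hh]
      exact if_neg hh
  have a1 : ∀ u v, G.Adj u v → shr ℓ h D s(u, v) ≤ ℓ s(u, v) := by
    intro u v ha
    rw [s1]
    split
    · exact h1 u v ha
    · exact le_rfl
  have a2 : ∀ u v, G.Adj u v → ℓ s(u, v) ≤ D * shr ℓ h D s(u, v) := by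
    intro u v ha
    rw [s1]
    split
    · assumption
    · have := pos u v ha
      nlinarith
  have a3 : ∀ u v, G.Adj u v → 0 < shr ℓ h D s(u, v) := by
    intro u v ha
    have h2 := a2 u v ha
    have h3 := pos u v ha
    by_contra h4
    push Not at h4
    nlinarith
  have steep : ∀ u v, G.Adj u v → ℓ s(u, v) ≤ D * (h v - h u) →
      shr ℓ h D s(u, v) = h v - h u := by
    intro u v ha h2
    have h3 := pos u v ha
    have h4 : 0 < h v - h u := by
      by_contra h5
      push Not at h5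
      nlinarith
    have h6 : |h u - h v| = h v - h u := by
      rw [abs_of_neg (by linarith)]
      ring
    rw [s1, h6, if_pos h2]
  have hB : Bip G (shr ℓ h D) h s t := by
    refine ⟨hc, a3, fun u v ha => ?_, fun v hv => ?_, fun v hv => ?_⟩
    · rw [s1]
      split
      · exact le_rfl
      · exact h1 u v ha
    · obtain ⟨w, hw, h2⟩ := hhigh v hv
      exact ⟨w, hw, (steep v w hw h2).symm⟩
    · obtain ⟨w, hw, h2⟩ := hlow v hv
      refine ⟨w, hw, ?_⟩
      rw [Sym2.eq_swap] at h2 ⊢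
      exact (steep w v hw.symm h2).symm
  have hE := bip1 hA hf V G σ (shr ℓ h D) h s t hP hB
  have e1 : ∀ x y, pathDist G ℓ x y ≤ D * pathDist G (shr ℓ h D) x y :=
    R2.H673.pathDist_le_mul hD0.le (fun u v ha => (pos u v ha).le) a2
  have e2 : ∀ x y, pathDist G (shr ℓ h D) x y ≤ 1 * pathDist G ℓ x y :=
    R2.H673.pathDist_le_mul zero_le_one (fun u v ha => (a3 u v ha).le)
      (fun u v ha => by rw [one_mul]; exact a1 u v ha)
  refine R2.H673.embedsL1_scale hD0.le hE e1 (fun x y => ?_)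
  have h3 : (0 : ℝ) ≤ 219073 * 2 * A * D := by positivity
  have h4 := mul_le_mul_of_nonneg_left (e2 x y) h3
  rw [one_mul] at h4
  calc D * (219073 * 2 * A * pathDist G (shr ℓ h D) x y) =
      219073 * 2 * A * D * pathDist G (shr ℓ h D) x y := by ring
    _ ≤ _ := h4

/-- every vertex on a shortest `s`-`t` path -/
theorem vertex1 {A : ℝ} (hA : 1 ≤ A) (hf : Core1 A) (V : Type) [Finite V]
    (G : SimpleGraph V) (σ : Equiv.Perm G.Dart) (ℓ : Sym2 V → ℝ) (s t : V)
    (hc : G.Connected) (hP : PlaneMap G σ) (hℓ : ∀ e ∈ G.edgeSet, 0 < ℓ e)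
    (hg : ∀ v, pathDist G ℓ s v + pathDist G ℓ v t = pathDist G ℓ s t) :
    EmbedsL1 (pathDist G ℓ) (219073 * 2 * A) :=
  bip1 hA hf V G σ ℓ _ s t hP (bip_of_vertices hc hℓ hg)

end wide

theorem stBound_of_core {A : ℝ} (hA : 1 ≤ A) (hf : Core1 A) (n : ℕ) :
    LL.StBound n (219073 * 2 * A) := by
  intro W _ Γ ℓ' s t hc hP hℓ _ hg _
  obtain ⟨σ, hσ⟩ := hP
  exact vertex1 hA hf W Γ σ ℓ' s t hc hσ hℓ hg

theorem planar_of_core {A : ℝ} (hA : 1 ≤ A) (hf : Core1 A) :
    ∃ K : ℝ, ∀ (V : Type) [Finite V] (G : SimpleGraph V), G.Connected →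
      (∃ σ : Equiv.Perm G.Dart, PlaneMap G σ) → DistortionLE G K :=
  LL.planar_iff.2 ⟨_, stBound_of_core hA hf⟩

end Vale.Agent.P235.ST.H945
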