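import Vale.Agent.P235.ST.H317.Defs
import Vale.Agent.P235.ST.H386.UW

/-! P235 (ST): from `partB` for `LWorld` (helper317) to `Main` for `UW` (helper751, helper386).
helper945. -/

namespace Vale.Agent.P235.ST.H945

open SimpleGraph Vale.Agent.P235.STO

/-- literal of `partB` of helper317's rows -/
def PartB317 : Prop :=
  ∀ (V : Type) [Fintype V] (W : LWorld V), ∃ (Ω : Type) (_ : Fintype Ω) (_ : Nonempty Ω)
    (w : Ω → V → ℝ),
    (∀ x y, W.G.Adj x y → ∑ o, |w o x - w o y| ≤ Fintype.card Ω) ∧
    ∀ x ∈ W.N, ∀ y ∈ W.N, 2 ^ 92 ≤ W.d x y →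
      Fintype.card Ω * (1 / 2 ^ 190 * W.d x y) ≤ ∑ o, |w o x - w o y|

/-- a world in which all vertices are lined -/
def ofUW {V : Type} {G : SimpleGraph V} {u : V → ℤ} {idx : V → ℕ} {L : ℕ → Set V}
    (h : UW G u idx L) : LWorld V where
  G := G
  u := u
  N := Set.univ
  idx := idx
  L := fun p => L (idx p)
  conn := h.conn
  unit := h.step
  mem_L := fun p _ => h.mem p
  L_sub := fun p _ z hz => ⟨trivial, h.low _ z hz⟩
  L_path := fun p _ a ha b hb hab => by
    obtain ⟨w, h1, h2⟩ := h.line _ a ha b hb hab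
    exact ⟨w, h1, fun z hz => (h2 z hz).1⟩
  L_level := fun p _ x _ => h.full p x
  sep := fun p _ a _ b _ h1 h2 q => h.sep p a b q h1 h2
  hop := fun a b q hq hin => by
    refine ⟨a, q.start_mem_support, ?_⟩
    have hsup : ∀ z ∈ q.support, z = a ∨ z = b := by
      intro z hz
      by_contra hne
      push Not at hne
      exact hin z hz hne.1 hne.2 trivial
    cases q with
    | nil => simp
    | @cons _ c _ hac q' =>
      cases q' with
      | nil =>
        have := h.step a b hac
        simp only [sub_self, abs_zero, zero_add, Walk.length_cons, Walk.length_nil, Nat.cast_one]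
        rw [abs_sub_comm]
        exact this
      | @cons _ e _ hce q'' =>
        exfalso
        have hnd := hq.support_nodup
        have hc : c = a ∨ c = b := hsup c (by simp)
        have he : e = a ∨ e = b := hsup e (by simp [Walk.support_cons])
        simp only [Walk.support_cons, List.nodup_cons, List.mem_cons, not_or] at hnd
        obtain ⟨⟨h1, h2⟩, h3, h4⟩ := hnd
        rcases hc with rfl | rfl
        · exact h1 rfl
        · exact h3 (q''.end_mem_support)

theorem main_of_partB (hB : PartB317) : Main (1 / 2 ^ 190) (2 ^ 92) := by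
  intro V _ G u idx L h
  obtain ⟨Ω, hΩ, hne, w, h1, h2⟩ := hB V (ofUW h)
  have hc : (0 : ℝ) < Fintype.card Ω := by exact_mod_cast Fintype.card_pos
  refine ⟨Ω, hΩ, fun _ => 1 / (Fintype.card Ω : ℝ), w, fun _ => by positivity, ?_, ?_⟩
  · intro x y hxy
    rw [← Finset.mul_sum, one_div, inv_mul_le_iff₀ hc, mul_one]
    exact h1 x y hxy
  · intro x y hxy
    have h3 := h2 x trivial y trivial hxy
    have h4 := mul_le_mul_of_nonneg_left h3 (inv_nonneg.2 hc.le)
    rw [← Finset.mul_sum]
    have e : ((Fintype.card Ω : ℝ))⁻¹ * (Fintype.card Ω * (1 / 2 ^ 190 * (ofUW h).d x y)) =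
        1 / 2 ^ 190 * (G.dist x y : ℝ) := by
      rw [← mul_assoc, inv_mul_cancel₀ hc.ne', one_mul]; rfl
    rw [e] at h4
    rw [one_div (Fintype.card Ω : ℝ)]
    exact h4

end Vale.Agent.P235.ST.H945
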