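import Vale.Agent.P235.ST.H945.Top
import Vale.Agent.P235.ST.H945.Glue

/-! P235 (ST): the final theorem from `PartB317` and `Main → Core1`.  helper945. -/

namespace Vale.Agent.P235.ST.H945

open Vale.Agent.P235

/-- planar graphs with an absolute constant; genus `g` after deleting `t` vertices -/
def PlanarNear : Prop :=
  ∃ C : ℝ, 1 ≤ C ∧
    (∀ (V : Type) [Finite V] (G : SimpleGraph V), G.Connected →
      (∃ σ : Equiv.Perm G.Dart, PlaneMap G σ) → DistortionLE G C) ∧
    ∀ (g t n : ℕ) (V : Type) [Finite V] (G : SimpleGraph V), G.Connected → NearSurf n g t V G →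
      DistortionLE G (C * (Real.log (g + 2) + Real.log (t + 2)))

theorem near_of_core {A : ℝ} (hA : 1 ≤ A) (hf : Core1 A) : PlanarNear := by
  obtain ⟨C, hC, h⟩ := LL.near_reduction
  have hK : (1 : ℝ) ≤ 219073 * 2 * A := by linarith
  refine ⟨C * (219073 * 2 * A) * 3, by nlinarith, ?_, ?_⟩
  · intro V _ G hc hP
    refine ((h (Nat.card V) _ hK (stBound_of_core hA hf _)).1 V G hc hP le_rfl).mono ?_
    have : 0 ≤ C * (219073 * 2 * A) := by positivity
    linarith
  · intro g t n V _ G hc hG
    refine ((h n _ hK (stBound_of_core hA hf _)).2 g t V G hc hG).mono ?_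
    have hlg : Real.log 2 ≤ Real.log ((g : ℝ) + 2) :=
      Real.log_le_log (by norm_num) (by have : (0 : ℝ) ≤ g := Nat.cast_nonneg g; linarith)
    have hlt : Real.log 2 ≤ Real.log ((t : ℝ) + 2) :=
      Real.log_le_log (by norm_num) (by have : (0 : ℝ) ≤ t := Nat.cast_nonneg t; linarith)
    have h2 := Real.log_two_gt_d9
    set a := Real.log ((g : ℝ) + 2)
    set b := Real.log ((t : ℝ) + 2)
    set K := 219073 * 2 * A
    have h3 : 1 ≤ a + b := by linarith
    have h4 : K + a + b ≤ K * 3 * (a + b) := by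
      have h5 : K ≤ K * (a + b) := le_mul_of_one_le_right (by linarith) h3
      have h6 : a + b ≤ K * (a + b) := le_mul_of_one_le_left (by linarith) hK
      have h7 : 0 ≤ K * (a + b) := by positivity
      nlinarith
    calc C * (K + a + b) ≤ C * (K * 3 * (a + b)) :=
          mul_le_mul_of_nonneg_left h4 (by linarith)
      _ = C * K * 3 * (a + b) := by ring

theorem near_of {hW : ∀ c r0 : ℝ, 0 < c → Main c r0 → ∃ K, 1 ≤ K ∧ Core1 K} (hB : PartB317) :
    PlanarNear := by
  obtain ⟨K, hK, hC⟩ := hW _ _ (by positivity) (main_of_partB hB)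
  exact near_of_core hK hC

end Vale.Agent.P235.ST.H945
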