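import Vale.Agent.P235.ST.H945.Asm
import Vale.Agent.P235.ST.H945.Final
import Vale.Agent.P235.ST.H548.Core

/-! P235 (ST): the final theorem.  helper945. -/

namespace Vale.Agent.P235.ST.H945

open Vale.Agent.P235.STO

theorem core1 : Core1 (2 ^ 190) := STO.H548.core1 fun _ _ W => partB W

theorem planarNear : PlanarNear := near_of_core (by norm_num) core1

end Vale.Agent.P235.ST.H945
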