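import Vale.Agent.P235.ST.H945.FinalW
import Vale.Agent.P235.ST.H690.Ops

/-! P235 (ST): planar graphs and the closure operations.  helper945. -/

namespace Vale.Agent.P235.ST.H945

open Vale.Agent.P235

theorem planarC : ∃ K : ℝ, H690.PlanarC K := by
  obtain ⟨C, -, h, -⟩ := planarNear
  exact ⟨C, h⟩

/-- planar graphs, genus and deleted vertices, rounds, path decompositions, all operations -/
theorem all : ∃ C : ℝ, 1 ≤ C ∧
    (∀ (V : Type) [Finite V] (G : SimpleGraph V), G.Connected →
      (∃ σ : Equiv.Perm G.Dart, PlaneMap G σ) → DistortionLE G C) ∧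
    (∀ (g t : ℕ) (V : Type) [Finite V] (G : SimpleGraph V), G.Connected →
      H690.NearGenus g t V G → DistortionLE G (C * (Real.log (g + 2) + Real.log (t + 2)))) ∧
    (∀ (g t s g' k : ℕ) (V : Type) [Finite V] (G : SimpleGraph V), G.Connected →
      (∀ ℓ : Sym2 V → ℝ, (∀ e ∈ G.edgeSet, 0 < ℓ e) → SurfStrip (H690.NearGenus g t) s g' k G ℓ) →
      DistortionLE G (C * (Real.log (g + 2) + Real.log (t + 2) +
        k * (g' + Real.log (s + 2))))) ∧
    (∀ (g t w N : ℕ) (V : Type) [Finite V] (G : SimpleGraph V), G.Connected →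
      ∀ (B : Fin N → Set V), PathDec G w B →
      (∀ i, ∀ u ∈ B i, H690.NearGenus g t _ (G.induce (compSet G (B i)ᶜ u))) →
      DistortionLE G (C * (Real.log (g + 2) + Real.log (t + 2) + √w))) ∧
    (∀ w j : ℕ, ∃ K : ℝ, ∀ (V : Type) [Finite V] (G : SimpleGraph V), G.Connected →
      AllOps (fun V G => H690.NearGenus w w V G ∨ TreewidthLE G w ∨ DistortionLE G w) w j G →
      DistortionLE G K) := by
  obtain ⟨C, hC, h1, h2, h3, h4, -⟩ := H690.closure planarC
  exact ⟨C, hC, h1, h2, h3, h4, H690.allOps_c planarC⟩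

end Vale.Agent.P235.ST.H945
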