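import Vale.Agent.P235.ST.H945.All
import Vale.Agent.P235.ST.H626.Sums3

/-! P235 (ST): planar graphs, edge sums and the closure operations.  helper945. -/

namespace Vale.Agent.P235.ST.H945

open Vale.Agent.P235

/-- `all` and the edge sums -/
theorem all2 : ∃ C : ℝ, 1 ≤ C ∧
    (∀ (V : Type) [Finite V] (G : SimpleGraph V), G.Connected →
      (∃ σ : Equiv.Perm G.Dart, PlaneMap G σ) → DistortionLE G C) ∧
    (∀ (g t : ℕ) (V : Type) [Finite V] (G : SimpleGraph V), G.Connected →
      H690.NearGenus g t V G → DistortionLE G (C * (Real.log (g + 2) + Real.log (t + 2)))) ∧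
    (∀ (w t : ℕ) (V : Type) [Finite V] (G : SimpleGraph V), G.Connected →
      EdgeSumOf (H626.PlanePiece w t) G →
        EdgeIso G (C * (w + Real.log (t + 2))) ∧ DistortionLE G (C * (w + Real.log (t + 2)))) ∧
    (∀ (g t s g' k : ℕ) (V : Type) [Finite V] (G : SimpleGraph V), G.Connected →
      (∀ ℓ : Sym2 V → ℝ, (∀ e ∈ G.edgeSet, 0 < ℓ e) → SurfStrip (H690.NearGenus g t) s g' k G ℓ) →
      DistortionLE G (C * (Real.log (g + 2) + Real.log (t + 2) +
        k * (g' + Real.log (s + 2))))) ∧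
    (∀ (g t w N : ℕ) (V : Type) [Finite V] (G : SimpleGraph V), G.Connected →
      ∀ (B : Fin N → Set V), PathDec G w B →
      (∀ i, ∀ u ∈ B i, H690.NearGenus g t _ (G.induce (compSet G (B i)ᶜ u))) →
      DistortionLE G (C * (Real.log (g + 2) + Real.log (t + 2) + √w))) ∧
    (∀ w j : ℕ, ∃ K : ℝ, ∀ (V : Type) [Finite V] (G : SimpleGraph V), G.Connected →
      AllOps (fun V G => H690.NearGenus w w V G ∨ TreewidthLE G w ∨ DistortionLE G w) w j G →
      DistortionLE G K) := by
  obtain ⟨C, hC, h1, h2, h3, h4, h5⟩ := all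
  obtain ⟨A, hA⟩ := H626.planar_piece3 planarC
  have hl : ∀ n : ℕ, 0 ≤ Real.log ((n : ℝ) + 2) := fun n =>
    Real.log_nonneg (by have : (0 : ℝ) ≤ n := Nat.cast_nonneg n; linarith)
  have m1 : C ≤ max C A := le_max_left _ _
  have m2 : A ≤ max C A := le_max_right _ _
  refine ⟨max C A, hC.trans m1, ?_, ?_, ?_, ?_, ?_, h5⟩
  · intro V _ G hc hσ
    exact (h1 V G hc hσ).mono m1
  · intro g t V _ G hc hG
    exact (h2 g t V G hc hG).mono
      (mul_le_mul_of_nonneg_right m1 (add_nonneg (hl g) (hl t)))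
  · intro w t V _ G hc hG
    have h := hA w t V G hc hG
    have h6 : A * (w + Real.log ((t : ℝ) + 2)) ≤ max C A * (w + Real.log ((t : ℝ) + 2)) :=
      mul_le_mul_of_nonneg_right m2 (add_nonneg (Nat.cast_nonneg _) (hl t))
    exact ⟨H626.EdgeIso.mono' h.1 h6, h.2.mono h6⟩
  · intro g t s g' k V _ G hc hG
    refine (h3 g t s g' k V G hc hG).mono (mul_le_mul_of_nonneg_right m1 ?_)
    have := hl g
    have := hl t
    have := hl s
    positivity
  · intro g t w N V _ G hc B hB hG
    refine (h4 g t w N V G hc B hB hG).mono (mul_le_mul_of_nonneg_right m1 ?_)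
    have := hl g
    have := hl t
    positivity

end Vale.Agent.P235.ST.H945
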