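import Vale.Agent.P235.ST.H742.TwGlue
import Vale.Agent.P235.ST.H626.Sums3

/-! P235 (ST): edge sums of planar graphs and graphs of bounded treewidth.  helper945. -/

namespace Vale.Agent.P235.ST.H945

open SimpleGraph Vale.Agent.P235

/-- connected planar graphs, graphs of treewidth at most `k`, and the graphs of `Piece3 w t` -/
def PlaneTw (k w t : ℕ) (V : Type) (G : SimpleGraph V) : Prop :=
  (G.Connected ∧ ∃ σ : Equiv.Perm G.Dart, PlaneMap G σ) ∨ (TreewidthLE G k ∨ Piece3 w t V G)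

theorem planar_tw
    (hP : ∃ K : ℝ, ∀ (V : Type) [Finite V] (G : SimpleGraph V), G.Connected →
      (∃ σ : Equiv.Perm G.Dart, PlaneMap G σ) → DistortionLE G K) (k w t : ℕ) :
    ∃ D : ℝ, ∀ (V : Type) [Finite V] (G : SimpleGraph V), G.Connected →
      EdgeSumOf (PlaneTw k w t) G → EdgeIso G D ∧ DistortionLE G D := by
  obtain ⟨K0, hK0⟩ := hP
  obtain ⟨B, hB⟩ := edgeSum_piece3
  obtain ⟨D1, -, hD1⟩ := H742.tw_edgeIso k
  have hP' : ∀ (V : Type) [Finite V] (G : SimpleGraph V), G.Connected →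
      (∃ σ : Equiv.Perm G.Dart, PlaneMap G σ) → DistortionLE G (max K0 1) := fun V _ G h1 h2 =>
    (hK0 V G h1 h2).mono (le_max_left _ _)
  refine ⟨12000 * max (max K0 1) (max D1 (B * (w + Real.log ((t : ℝ) + 2)))),
    fun V _ G hG hE => ?_⟩
  exact H626.planar_sums (le_max_right K0 1) hP' (fun V G => TreewidthLE G k ∨ Piece3 w t V G)
    (max D1 (B * (w + Real.log ((t : ℝ) + 2))))
    (fun V _ G hG h => by
      rcases h with h | h
      · exact H626.EdgeIso.mono' (hD1 V G hG h) (le_max_left _ _)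
      · exact H626.EdgeIso.mono' (hB w t V G hG (EdgeSumOf.base h)).1 (le_max_right _ _))
    V G hG hE

end Vale.Agent.P235.ST.H945
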