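import Vale.Agent.P235.ST.H945.All2
import Vale.Agent.P235.ST.H945.TwSum
import Vale.Agent.P235.ST.H172.Topo

/-! P235 (ST): the final form (helper317's decision #25538).  helper945. -/

namespace Vale.Agent.P235.ST.H945

open Vale.Agent.P235

/-- planar graphs, genus and deleted vertices, edge sums, all operations -/
theorem all4 : ∃ C : ℝ, 1 ≤ C ∧
    (∀ (V : Type) [Finite V] (G : SimpleGraph V), G.Connected →
      (H134.Planar G ∨ ∃ σ : Equiv.Perm G.Dart, PlaneMap G σ) → DistortionLE G C) ∧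
    (∀ (g t n : ℕ) (V : Type) [Finite V] (G : SimpleGraph V), G.Connected → NearSurf n g t V G →
      DistortionLE G (C * (Real.log (g + 2) + Real.log (t + 2)))) ∧
    (∀ (w t : ℕ) (V : Type) [Finite V] (G : SimpleGraph V), G.Connected →
      EdgeSumOf (H626.PlanePiece w t) G →
        EdgeIso G (C * (w + Real.log (t + 2))) ∧ DistortionLE G (C * (w + Real.log (t + 2)))) ∧
    (∀ k w t : ℕ, ∃ K : ℝ, ∀ (V : Type) [Finite V] (G : SimpleGraph V), G.Connected →
      EdgeSumOf (PlaneTw k w t) G → EdgeIso G K ∧ DistortionLE G K) ∧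
    (∀ w j : ℕ, ∃ K : ℝ, ∀ (V : Type) [Finite V] (G : SimpleGraph V), G.Connected →
      AllOps (fun V G => NearSurf (Nat.card V) w w V G ∨ EdgeSumOf (PlaneTw w w w) G ∨
        DistortionLE G w) w j G → DistortionLE G K) := by
  obtain ⟨C, hC, h1, h2, h3, -, -, -⟩ := all2
  have h4 : ∀ k w t : ℕ, ∃ K : ℝ, ∀ (V : Type) [Finite V] (G : SimpleGraph V), G.Connected →
      EdgeSumOf (PlaneTw k w t) G → EdgeIso G K ∧ DistortionLE G K :=
    fun k w t => planar_tw planarC k w t
  refine ⟨C, hC, fun V _ G hc hG => ?_, ?_, h3, h4, fun w j => ?_⟩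
  · rcases hG with hG | hG
    · exact H172.planar_of_plane h1 V G hc hG
    · exact h1 V G hc hG
  · rintro g t n V _ G hc ⟨-, -, hG⟩
    exact h2 g t V G hc hG
  · obtain ⟨K2, hK2⟩ := h4 w w w
    obtain ⟨K', hK'⟩ := H690.allOps_bounded
      (max (C * (Real.log (w + 2) + Real.log (w + 2))) (max K2 w)) w j
    refine ⟨K', fun V _ G hc hG => hK' _ (fun V _ G hc hG => ?_) V G hc hG⟩
    rcases hG with hG | hG | hG
    · obtain ⟨-, -, hG⟩ := hG
      exact (h2 w w V G hc hG).mono (le_max_left _ _)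
    · exact (hK2 V G hc hG).2.mono ((le_max_left _ _).trans (le_max_right _ _))
    · exact hG.mono ((le_max_right _ _).trans (le_max_right _ _))

end Vale.Agent.P235.ST.H945
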