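import Vale.Agent.P235.ST.H945.All4
import Vale.Agent.P235.ST.H645.AllAny

/-! P235 (ST): the final form over all closed surfaces (helper317's decision #25900).  helper945. -/

namespace Vale.Agent.P235.ST.H945

open Vale.Agent.P235

/-- planar graphs, closed surfaces and deleted vertices, edge sums, all operations -/
theorem all5 : ∃ C : ℝ, 1 ≤ C ∧
    (∀ (V : Type) [Finite V] (G : SimpleGraph V), G.Connected →
      (H134.Planar G ∨ ∃ σ : Equiv.Perm G.Dart, PlaneMap G σ) → DistortionLE G C) ∧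
    (∀ (g t : ℕ) (V : Type) [Finite V] (G : SimpleGraph V), G.Connected → NearAnySurf g t V G →
      DistortionLE G (C * (Real.log (g + 2) + Real.log (t + 2)))) ∧
    (∀ (w t : ℕ) (V : Type) [Finite V] (G : SimpleGraph V), G.Connected →
      EdgeSumOf (H626.PlanePiece w t) G →
        EdgeIso G (C * (w + Real.log (t + 2))) ∧ DistortionLE G (C * (w + Real.log (t + 2)))) ∧
    (∀ k w t : ℕ, ∃ K : ℝ, ∀ (V : Type) [Finite V] (G : SimpleGraph V), G.Connected →
      EdgeSumOf (PlaneTw k w t) G → EdgeIso G K ∧ DistortionLE G K) ∧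
    (∀ w j : ℕ, ∃ K : ℝ, ∀ (V : Type) [Finite V] (G : SimpleGraph V), G.Connected →
      AllOps (fun V G => NearAnySurf w w V G ∨ TreewidthLE G w ∨ EdgeSumOf (PlaneTw w w w) G ∨
        DistortionLE G w) w j G → DistortionLE G K) := by
  obtain ⟨C, hC, h1, -, h3, h4, -⟩ := all4
  obtain ⟨A, hA, h2⟩ := H645.near_any' planarC
  have hl : ∀ n : ℕ, 0 ≤ Real.log ((n : ℝ) + 2) := fun n => Real.log_nonneg (by
    have := Nat.cast_nonneg (α := ℝ) n
    linarith)
  refine ⟨max C A, hC.trans (le_max_left _ _), fun V _ G hc hG => ?_, fun g t V _ G hc hG => ?_,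
    fun w t V _ G hc hG => ?_, h4, fun w j => ?_⟩
  · exact (h1 V G hc hG).mono (le_max_left _ _)
  · refine (h2 g t V G hc hG).mono ?_
    exact mul_le_mul_of_nonneg_right (le_max_right _ _) (add_nonneg (hl g) (hl t))
  · obtain ⟨h5, h6⟩ := h3 w t V G hc hG
    have hm : C * ((w : ℝ) + Real.log (t + 2)) ≤ max C A * ((w : ℝ) + Real.log (t + 2)) :=
      mul_le_mul_of_nonneg_right (le_max_left _ _) (add_nonneg (Nat.cast_nonneg w) (hl t))
    exact ⟨H626.EdgeIso.mono' h5 hm, h6.mono hm⟩
  · obtain ⟨K2, hK2⟩ := H957.tw_bounded w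
    obtain ⟨K3, hK3⟩ := h4 w w w
    refine H645.allOps_any planarC w j (K₂ := max K2 (max K3 w)) fun V _ G hc hG => ?_
    rcases hG with hG | hG | hG
    · exact (hK2 V G hc hG).mono (le_max_left _ _)
    · exact (hK3 V G hc hG).2.mono ((le_max_left _ _).trans (le_max_right _ _))
    · exact hG.mono ((le_max_right _ _).trans (le_max_right _ _))

end Vale.Agent.P235.ST.H945
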