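import Vale.Agent.P235.ST.H945.All5
import Vale.Agent.P235.ST.H742.VortexEnd

/-! P235 (ST): the final form over all closed surfaces, with vortices (helper317's decision #25900).
helper945. -/

namespace Vale.Agent.P235.ST.H945

open Vale.Agent.P235

/-- planar graphs, closed surfaces and deleted vertices, edge sums, vortices, all operations -/
theorem all6 : ∃ C : ℝ, 1 ≤ C ∧
    (∀ (V : Type) [Finite V] (G : SimpleGraph V), G.Connected →
      (H134.Planar G ∨ ∃ σ : Equiv.Perm G.Dart, PlaneMap G σ) → DistortionLE G C) ∧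
    (∀ (g t : ℕ) (V : Type) [Finite V] (G : SimpleGraph V), G.Connected → NearAnySurf g t V G →
      DistortionLE G (C * (Real.log (g + 2) + Real.log (t + 2)))) ∧
    (∀ (w t : ℕ) (V : Type) [Finite V] (G : SimpleGraph V), G.Connected →
      EdgeSumOf (H626.PlanePiece w t) G →
        EdgeIso G (C * (w + Real.log (t + 2))) ∧ DistortionLE G (C * (w + Real.log (t + 2)))) ∧
    (∀ k w t : ℕ, ∃ K : ℝ, ∀ (V : Type) [Finite V] (G : SimpleGraph V), G.Connected →
      EdgeSumOf (PlaneTw k w t) G → EdgeIso G K ∧ DistortionLE G K) ∧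
    (∀ w : ℕ, ∃ K : ℝ, ∀ (V : Type) [Finite V] (G : SimpleGraph V), G.Connected →
      H742.PlaneVortex w V G → DistortionLE G K) ∧
    (∀ w j : ℕ, ∃ K : ℝ, ∀ (V : Type) [Finite V] (G : SimpleGraph V), G.Connected →
      AllOps (fun V G => NearAnySurf w w V G ∨ TreewidthLE G w ∨ EdgeSumOf (PlaneTw w w w) G ∨
        H742.PlaneVortex w V G ∨ DistortionLE G w) w j G → DistortionLE G K) := by
  obtain ⟨C, hC, h1, h2, h3, h4, -⟩ := all5
  refine ⟨C, hC, h1, h2, h3, h4, H742.planar_vortex, fun w j => ?_⟩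
  obtain ⟨K2, hK2⟩ := H957.tw_bounded w
  obtain ⟨K3, hK3⟩ := h4 w w w
  obtain ⟨K4, hK4⟩ := H742.planar_vortex w
  refine H645.allOps_any planarC w j (K₂ := max K2 (max K3 (max K4 w))) fun V _ G hc hG => ?_
  rcases hG with hG | hG | hG | hG
  · exact (hK2 V G hc hG).mono (le_max_left _ _)
  · exact (hK3 V G hc hG).2.mono ((le_max_left _ _).trans (le_max_right _ _))
  · exact (hK4 V G hc hG).mono
      ((le_max_left _ _).trans ((le_max_right _ _).trans (le_max_right _ _)))
  · exact hG.mono ((le_max_right _ _).trans ((le_max_right _ _).trans (le_max_right _ _)))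

end Vale.Agent.P235.ST.H945
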