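import Vale.Agent.P235.ST.H119.Stretch
import Vale.Agent.P235.ST.H188.RowsPlan
import Vale.Agent.P235.ST.H592.Law
import Vale.Agent.P235.ST.H673.PieceW
import Vale.Agent.P235.ST.H698.Bumps

/-! P235 (ST): assembly of part B from the landed rows.  helper945. -/

namespace Vale.Agent.P235.ST.H945

open Vale.Agent.P235.STO

variable {V : Type} (W : LWorld V) [Fintype V]

theorem bumps : STO.H592.Bumps W := fun _ h =>
  Vale.Agent.P235.ST.H698.bumps_of W (fun k m _ _ h => STO.H119.D_lip W k m h)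
    (fun k m _ _ hp hq hr hi => STO.H119.D_T W k m hp hq hr hi)
    (fun k m _ _ h => (STO.H119.bi_of_reach W k m h).2) (STO.H119.exists_mid W) h

theorem invStep : STO.H592.InvStep W := fun _ _ _ hρ hw h1 h2 =>
  STO.H673.inv_step W (STO.H119.stretch_all W) hρ hw h1 h2

theorem law_zero : W.Law 0 :=
  STO.H592.law_zero_of W (STO.H188.rho_eventually W) (STO.H188.rho_scale W)
    (fun _ h x => STO.H188.nxt_le W h x) (bumps W) (invStep W)

/-- **part B** -/
theorem partB : ∃ (Ω : Type) (_ : Fintype Ω) (_ : Nonempty Ω) (w : Ω → V → ℝ),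
    (∀ x y, W.G.Adj x y → ∑ o, |w o x - w o y| ≤ Fintype.card Ω) ∧
    ∀ x ∈ W.N, ∀ y ∈ W.N, 2 ^ 92 ≤ W.d x y →
      Fintype.card Ω * (1 / 2 ^ 190 * W.d x y) ≤ ∑ o, |w o x - w o y| :=
  STO.H592.partB_of W (law_zero W) fun _ _ hz hy hu hi hd => STO.H188.exists_level W hz hy hu hi hd

end Vale.Agent.P235.ST.H945
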